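import Vale.Agent.P181.Bdl.B2

/-!
# P181, Z: the two Foulkes-Howe maps are adjoint; the image of one meets the kernel of the other
in zero
-/

set_option autoImplicit false

open scoped TensorProduct

namespace Vale.Agent.P181.Z.H188

open Vale.Agent.P181 Finset

section gen

universe u

variable {ι : Type} [Fintype ι] {M : Type u} [AddCommGroup M] [Module ℂ M]

lemma symEval_perm (lam : ι → Module.Dual ℂ M) (e : Equiv.Perm ι) :
    symEval (fun i => lam (e i)) = symEval lam := by
  classical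
  apply sym_hom_ext
  intro v
  rw [symEval_tprod, symEval_tprod]
  rw [← Equiv.sum_comp (Equiv.mulRight e) (fun s : Equiv.Perm ι => ∏ i, lam (e i) (v (s i)))]
  apply Finset.sum_congr rfl
  intro s _
  exact Equiv.prod_comp e (fun i => lam i (v (s i)))

end gen

variable {n : ℕ}

/-- The coordinate functionals. -/
noncomputable def C (a b : ℕ) (I : Fin a → Fin b → Fin n) :
    (Sym[ℂ]^a (Sym[ℂ]^b (Fin n → ℂ))) →ₗ[ℂ] ℂ :=
  symEval (fun i => (symEval (fun j => (LinearMap.proj (I i j) : Module.Dual ℂ (Fin n → ℂ))) :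
    (Sym[ℂ]^b (Fin n → ℂ)) →ₗ[ℂ] ℂ))

lemma C_perm (a b : ℕ) (I : Fin a → Fin b → Fin n) (σ : Fin a → Equiv.Perm (Fin b)) :
    C a b (fun i j => I i (σ i j)) = C a b I := by
  unfold C
  congr 1
  funext i
  exact symEval_perm (fun j => (LinearMap.proj (I i j) : Module.Dual ℂ (Fin n → ℂ))) (σ i)

lemma C_tprod (a b : ℕ) (I : Fin a → Fin b → Fin n) (v : Fin a → Fin b → Fin n → ℂ) :
    C a b I (SymmetricPower.tprod ℂ (fun i => SymmetricPower.tprod ℂ (v i))) =
      ∑ e : Equiv.Perm (Fin a), ∑ s : Fin a → Equiv.Perm (Fin b),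
        ∏ i, ∏ j, v (e i) (s i j) (I i j) := by
  unfold C
  rw [symEval_tprod]
  apply Finset.sum_congr rfl
  intro e _
  rw [Finset.prod_congr rfl fun i _ => symEval_tprod _ _]
  rw [Finset.prod_univ_sum, Fintype.piFinset_univ]
  rfl

lemma C_separates (a b : ℕ) (x : Sym[ℂ]^a (Sym[ℂ]^b (Fin n → ℂ)))
    (h : ∀ I : Fin a → Fin b → Fin n, C a b I x = 0) : x = 0 := by
  set S : Set (Module.Dual ℂ (Sym[ℂ]^b (Fin n → ℂ))) := Set.range (fun J : Fin b → Fin n =>
    (symEval (fun j => (LinearMap.proj (J j) : Module.Dual ℂ (Fin n → ℂ))) :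
      (Sym[ℂ]^b (Fin n → ℂ)) →ₗ[ℂ] ℂ)) with hS
  have hspan0 : Submodule.span ℂ (Set.range (fun k : Fin n =>
      (LinearMap.proj k : Module.Dual ℂ (Fin n → ℂ)))) = ⊤ := by
    rw [eq_top_iff]
    intro f _
    have h1 : f = ∑ k, f (Pi.single k 1) • (LinearMap.proj k : Module.Dual ℂ (Fin n → ℂ)) := by
      apply LinearMap.pi_ext'
      intro k
      ext
      simp [Pi.single_apply]
    rw [h1]
    exact Submodule.sum_mem _ fun k _ => Submodule.smul_mem _ _ (Submodule.subset_span ⟨k, rfl⟩)
  have hspan : Submodule.span ℂ S = ⊤ := by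
    set W := Submodule.span ℂ S with hW
    have h1 : W.dualCoannihilator = ⊥ := by
      rw [eq_bot_iff]
      intro y hy
      rw [Submodule.mem_dualCoannihilator] at hy
      rw [Submodule.mem_bot]
      apply symEval_separates _ hspan0
      intro lam hlam
      choose J hJ using hlam
      have h2 : lam = fun j => (LinearMap.proj (J j) : Module.Dual ℂ (Fin n → ℂ)) := by
        funext j
        exact (hJ j).symm
      rw [h2]
      exact hy _ (Submodule.subset_span ⟨J, rfl⟩)
    have h2 := Subspace.dualCoannihilator_dualAnnihilator_eq (W := W)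
    rw [h1, Submodule.dualAnnihilator_bot] at h2
    exact h2.symm
  apply symEval_separates S hspan
  intro lam hlam
  choose I hI using hlam
  have h2 : lam = fun i => (symEval (fun j =>
      (LinearMap.proj (I i j) : Module.Dual ℂ (Fin n → ℂ))) :
      (Sym[ℂ]^b (Fin n → ℂ)) →ₗ[ℂ] ℂ) := by
    funext i
    exact (hI i).symm
  rw [h2]
  exact h I

/-- The common value. -/
noncomputable def S0 {a b : ℕ} (v : Fin a → Fin b → Fin n → ℂ) (J : Fin b → Fin a → Fin n) : ℂ :=
  ∑ s : Fin a → Equiv.Perm (Fin b), ∑ t : Fin b → Equiv.Perm (Fin a),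
    ∏ i, ∏ j, v i (s i j) (J j (t j i))

lemma S0_left {a b : ℕ} (v : Fin a → Fin b → Fin n → ℂ) (J : Fin b → Fin a → Fin n) :
    ∑ t : Fin b → Equiv.Perm (Fin a), C a b (fun i j => J j (t j i))
      (SymmetricPower.tprod ℂ (fun i => SymmetricPower.tprod ℂ (v i))) =
      (Fintype.card (Equiv.Perm (Fin a)) : ℂ) * S0 v J := by
  rw [Finset.sum_congr rfl fun t _ => C_tprod a b _ v, Finset.sum_comm]
  have h : ∀ e : Equiv.Perm (Fin a), ∑ t : Fin b → Equiv.Perm (Fin a),
      ∑ s : Fin a → Equiv.Perm (Fin b), ∏ i, ∏ j, v (e i) (s i j) (J j (t j i)) = S0 v J := by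
    intro e
    unfold S0
    rw [Finset.sum_comm]
    rw [← (Equiv.arrowCongr e.symm (Equiv.refl (Equiv.Perm (Fin b)))).sum_comp
      (fun s : Fin a → Equiv.Perm (Fin b) => ∑ t : Fin b → Equiv.Perm (Fin a),
        ∏ i, ∏ j, v (e i) (s i j) (J j (t j i)))]
    apply Finset.sum_congr rfl
    intro s _
    rw [← (Equiv.piCongrRight (fun _ : Fin b => Equiv.mulRight e)).sum_comp
      (fun t : Fin b → Equiv.Perm (Fin a) => ∏ i, ∏ j, v (e i)
        ((Equiv.arrowCongr e.symm (Equiv.refl (Equiv.Perm (Fin b)))) s i j) (J j (t j i)))]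
    apply Finset.sum_congr rfl
    intro t _
    exact Equiv.prod_comp e (fun i => ∏ j, v i (s i j) (J j (t j i)))
  rw [Finset.sum_congr rfl fun e _ => h e, Finset.sum_const, nsmul_eq_mul, Finset.card_univ]

lemma S0_right {a b : ℕ} (v : Fin a → Fin b → Fin n → ℂ) (J : Fin b → Fin a → Fin n) :
    C b a J (foulkesHowe a b (Fin n → ℂ)
      (SymmetricPower.tprod ℂ (fun i => SymmetricPower.tprod ℂ (v i)))) =
      (Fintype.card (Equiv.Perm (Fin b)) : ℂ) * S0 v J := by
  rw [foulkesHowe_tprod, map_sum]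
  have h0 : ∀ σ : Fin a → Equiv.Perm (Fin b), C b a J (SymmetricPower.tprod ℂ (fun j =>
      SymmetricPower.tprod ℂ (fun i => v i (σ i j)))) =
      ∑ e : Equiv.Perm (Fin b), ∑ s : Fin b → Equiv.Perm (Fin a),
        ∏ j, ∏ i, v (s j i) (σ (s j i) (e j)) (J j i) := fun σ =>
    C_tprod b a J (fun j i => v i (σ i j))
  rw [Finset.sum_congr rfl fun σ _ => h0 σ, Finset.sum_comm]
  have h : ∀ e : Equiv.Perm (Fin b), ∑ σ : Fin a → Equiv.Perm (Fin b),
      ∑ s : Fin b → Equiv.Perm (Fin a),
        ∏ j, ∏ i, v (s j i) (σ (s j i) (e j)) (J j i) = S0 v J := by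
    intro e
    unfold S0
    rw [← (Equiv.piCongrRight (fun _ : Fin a => Equiv.mulRight e⁻¹)).sum_comp
      (fun σ : Fin a → Equiv.Perm (Fin b) => ∑ s : Fin b → Equiv.Perm (Fin a),
        ∏ j, ∏ i, v (s j i) (σ (s j i) (e j)) (J j i))]
    apply Finset.sum_congr rfl
    intro σ _
    rw [← (Equiv.piCongrRight (fun _ : Fin b => Equiv.inv (Equiv.Perm (Fin a)))).sum_comp
      (fun t : Fin b → Equiv.Perm (Fin a) => ∏ i, ∏ j, v i (σ i j) (J j (t j i)))]
    apply Finset.sum_congr rfl
    intro s _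
    refine Eq.trans ?_ Finset.prod_comm
    apply Finset.prod_congr rfl
    intro j _
    refine Eq.trans ?_ (Equiv.prod_comp (s j) _)
    apply Finset.prod_congr rfl
    intro i _
    simp
  rw [Finset.sum_congr rfl fun e _ => h e, Finset.sum_const, nsmul_eq_mul, Finset.card_univ]

/-- **The coordinates of the image.** -/
lemma C_foulkesHowe (a b : ℕ) (J : Fin b → Fin a → Fin n)
    (x : Sym[ℂ]^a (Sym[ℂ]^b (Fin n → ℂ))) :
    (Fintype.card (Equiv.Perm (Fin a)) : ℂ) * C b a J (foulkesHowe a b (Fin n → ℂ) x) =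
      (Fintype.card (Equiv.Perm (Fin b)) : ℂ) *
        ∑ t : Fin b → Equiv.Perm (Fin a), C a b (fun i j => J j (t j i)) x := by
  have h : (Fintype.card (Equiv.Perm (Fin a)) : ℂ) •
      ((C b a J) ∘ₗ (foulkesHowe a b (Fin n → ℂ))) =
      (Fintype.card (Equiv.Perm (Fin b)) : ℂ) •
        ∑ t : Fin b → Equiv.Perm (Fin a), C a b (fun i j => J j (t j i)) := by
    apply pure_hom_ext
    intro v
    rw [LinearMap.smul_apply, LinearMap.smul_apply, LinearMap.comp_apply, LinearMap.sum_apply,
      S0_left, S0_right, smul_eq_mul, smul_eq_mul]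
    ring
  have h1 := congrArg (fun g => g x) h
  simpa only [LinearMap.smul_apply, LinearMap.comp_apply, LinearMap.sum_apply, smul_eq_mul]
    using h1

/-- **Positivity.** -/
theorem pos (a b : ℕ) (x : Sym[ℂ]^a (Sym[ℂ]^b (Fin n → ℂ)))
    (hx : foulkesHowe b a (Fin n → ℂ) (foulkesHowe a b (Fin n → ℂ) x) = 0) :
    foulkesHowe a b (Fin n → ℂ) x = 0 := by
  classical
  set z := foulkesHowe a b (Fin n → ℂ) x with hz
  have ha0 : (Fintype.card (Equiv.Perm (Fin a)) : ℂ) ≠ 0 := by
    exact_mod_cast Fintype.card_ne_zero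
  have hb0 : (Fintype.card (Equiv.Perm (Fin b)) : ℂ) ≠ 0 := by
    exact_mod_cast Fintype.card_ne_zero
  have h1 : ∀ I : Fin a → Fin b → Fin n,
      ∑ s : Fin a → Equiv.Perm (Fin b), C b a (fun j i => I i (s i j)) z = 0 := by
    intro I
    have h2 := C_foulkesHowe b a I z
    rw [hx, map_zero, mul_zero] at h2
    exact (mul_eq_zero.1 h2.symm).resolve_left ha0
  set U : ℂ := ∑ I : Fin a → Fin b → Fin n,
    (starRingEnd ℂ) (C b a (fun j i => I i j) z) * C a b I x with hU
  have hU0 : (Fintype.card (Fin a → Equiv.Perm (Fin b)) : ℂ) * U = 0 := by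
    have h3 : ∀ s : Fin a → Equiv.Perm (Fin b), ∑ I : Fin a → Fin b → Fin n,
        (starRingEnd ℂ) (C b a (fun j i => I i (s i j)) z) * C a b I x = U := by
      intro s
      rw [hU]
      rw [← (Equiv.piCongrRight (fun i : Fin a =>
        Equiv.arrowCongr (s i) (Equiv.refl (Fin n)))).sum_comp]
      apply Finset.sum_congr rfl
      intro I _
      congr 2
      · congr 2
        funext j i
        simp [Equiv.arrowCongr]
      · have h4 := C_perm a b (fun i j => I i ((s i).symm j)) s
        have h5 : (fun (i : Fin a) (j : Fin b) => I i ((s i).symm (s i j))) = I := by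
          funext i j
          simp
        rw [h5] at h4
        rw [h4]
        rfl
    have h6 : ∑ s : Fin a → Equiv.Perm (Fin b), ∑ I : Fin a → Fin b → Fin n,
        (starRingEnd ℂ) (C b a (fun j i => I i (s i j)) z) * C a b I x =
        (Fintype.card (Fin a → Equiv.Perm (Fin b)) : ℂ) * U := by
      rw [Finset.sum_congr rfl fun s _ => h3 s, Finset.sum_const, nsmul_eq_mul, Finset.card_univ]
    rw [← h6, Finset.sum_comm]
    apply Finset.sum_eq_zero
    intro I _
    rw [← Finset.sum_mul, ← map_sum, h1 I, map_zero, zero_mul]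
  have hcard : (Fintype.card (Fin a → Equiv.Perm (Fin b)) : ℂ) ≠ 0 := by
    exact_mod_cast Fintype.card_ne_zero
  have hU1 : U = 0 := (mul_eq_zero.1 hU0).resolve_left hcard
  have hT : ∑ J : Fin b → Fin a → Fin n, (starRingEnd ℂ) (C b a J z) * C b a J z = 0 := by
    have h3 : (Fintype.card (Equiv.Perm (Fin a)) : ℂ) *
        ∑ J : Fin b → Fin a → Fin n, (starRingEnd ℂ) (C b a J z) * C b a J z =
        (Fintype.card (Equiv.Perm (Fin b)) : ℂ) * ∑ t : Fin b → Equiv.Perm (Fin a),
          ∑ J : Fin b → Fin a → Fin n,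
            (starRingEnd ℂ) (C b a J z) * C a b (fun i j => J j (t j i)) x := by
      rw [Finset.sum_comm, Finset.mul_sum, Finset.mul_sum]
      apply Finset.sum_congr rfl
      intro J _
      rw [← Finset.mul_sum]
      have h4 := C_foulkesHowe a b J x
      rw [← hz] at h4
      calc (Fintype.card (Equiv.Perm (Fin a)) : ℂ) * ((starRingEnd ℂ) (C b a J z) * C b a J z)
          = (starRingEnd ℂ) (C b a J z) *
            ((Fintype.card (Equiv.Perm (Fin a)) : ℂ) * C b a J z) := by ring
        _ = _ := by rw [h4]; ring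
    have h4 : ∀ t : Fin b → Equiv.Perm (Fin a), ∑ J : Fin b → Fin a → Fin n,
        (starRingEnd ℂ) (C b a J z) * C a b (fun i j => J j (t j i)) x = U := by
      intro t
      rw [← (Equiv.piCongrRight (fun j : Fin b =>
        Equiv.arrowCongr (t j) (Equiv.refl (Fin n)))).sum_comp]
      rw [hU, ← (Equiv.piComm (fun (_ : Fin a) (_ : Fin b) => Fin n)).symm.sum_comp]
      apply Finset.sum_congr rfl
      intro J _
      have h5 : C b a ((Equiv.piCongrRight (fun j : Fin b =>
          Equiv.arrowCongr (t j) (Equiv.refl (Fin n)))) J) = C b a J := by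
        have h6 := C_perm b a (fun j i => J j ((t j).symm i)) t
        have h7 : (fun (j : Fin b) (i : Fin a) => J j ((t j).symm (t j i))) = J := by
          funext i j
          simp
        rw [h7] at h6
        rw [h6]
        rfl
      rw [h5]
      congr 2
      congr 1
      funext i j
      simp [Equiv.arrowCongr]
    rw [Finset.sum_congr rfl fun t _ => h4 t, hU1] at h3
    simp only [Finset.sum_const_zero, mul_zero] at h3
    exact (mul_eq_zero.1 h3).resolve_left ha0
  apply C_separates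
  intro J
  have h3 : ∑ J : Fin b → Fin a → Fin n, Complex.normSq (C b a J z) = 0 := by
    have h4 : ((∑ J : Fin b → Fin a → Fin n, Complex.normSq (C b a J z) : ℝ) : ℂ) = 0 := by
      rw [Complex.ofReal_sum, ← hT]
      apply Finset.sum_congr rfl
      intro J _
      rw [Complex.normSq_eq_conj_mul_self]
    exact_mod_cast h4
  have h4 := (Finset.sum_eq_zero_iff_of_nonneg (fun J _ => Complex.normSq_nonneg _)).1 h3 J
    (Finset.mem_univ J)
  exact Complex.normSq_eq_zero.1 h4

end Vale.Agent.P181.Z.H188
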