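import Vale.Agent.P181.H411.UDefs

/-!
# P181, the upper bound for the kernel, leaf (C2)
-/

set_option autoImplicit false

open MvPolynomial

namespace Vale.Agent.P181.H411.UB

open Vale.Agent.P181 Vale.Agent.P181.H536 Vale.Agent.P181.H280 Vale.Agent.P181.TN
  Vale.Agent.P181.TW

variable {n : ℕ}

lemma lin_eq_sum (c : Fin (n + 1) → ℂ) :
    (1 + ∑ i, c i • (X i : Af n)) = ∑ o, cc c o • el o := by
  rw [Fintype.sum_option]
  simp only [cc, el, one_smul]

lemma prod_lin {N : ℕ} (y : Fin N → Fin (n + 1) → ℂ) :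
    ∏ j, (1 + ∑ i, y j i • (X i : Af n)) =
      ∑ t : Fin N → Option (Fin (n + 1)), (∏ j, cc (y j) (t j)) • ∏ j, el (t j) := by
  rw [Finset.prod_congr rfl fun j _ => lin_eq_sum (y j), Finset.prod_univ_sum,
    Fintype.piFinset_univ]
  apply Finset.sum_congr rfl
  intro t _
  simp only [smul_eq_C_mul]
  rw [Finset.prod_mul_distrib, map_prod]

/-- (C2) The generating function. -/
theorem gen (b : ℕ) {a N : ℕ} (F : Fm n a) (y : Fin N → Fin (n + 1) → ℂ) :
    F (fun _ => hom n b (∏ j, (1 + ∑ i, y j i • X i))) =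
      ∑ v ∈ Fintype.piFinset (fun _ : Fin N => bx (n + 1) a),
        (∏ j, ∏ i, y j i ^ v j i) * cf b v F := by
  classical
  have h1 : (fun _ : Fin a => hom n b (∏ j, (1 + ∑ i, y j i • (X i : Af n)))) =
      fun _ : Fin a => ∑ t : Fin N → Option (Fin (n + 1)),
        (∏ j, cc (y j) (t j)) • hom n b (∏ j, el (t j)) := by
    funext _
    rw [prod_lin, map_sum]
    simp only [map_smul]
  rw [h1, MultilinearMap.map_sum]
  have h2 : ∀ T : Fin a → Fin N → Option (Fin (n + 1)),
      F (fun s => (∏ j, cc (y j) (T s j)) • hom n b (∏ j, el (T s j))) =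
        (∏ j, ∏ i, y j i ^ co (fun s => T s j) i) * F (fun s => hom n b (∏ j, el (T s j))) := by
    intro T
    rw [MultilinearMap.map_smul_univ, Finset.prod_comm, smul_eq_mul]
    congr 1
    apply Finset.prod_congr rfl
    intro j _
    exact prod_cc (y j) (fun s => T s j)
  rw [Finset.sum_congr rfl (fun T _ => h2 T),
    ← Finset.sum_fiberwise_of_maps_to
      (g := fun (T : Fin a → Fin N → Option (Fin (n + 1))) (j : Fin N) => co (fun s => T s j))
      (t := Fintype.piFinset (fun _ : Fin N => bx (n + 1) a))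
      (fun T _ => Fintype.mem_piFinset.2 fun j => co_mem_bx _)]
  apply Finset.sum_congr rfl
  intro v _
  rw [cf, Finset.mul_sum]
  apply Finset.sum_congr
  · ext T
    simp only [Finset.mem_filter, Finset.mem_univ, true_and, funext_iff]
  · intro T hT
    have h3 : ∀ j, co (fun s => T s j) = v j := by
      simpa only [Finset.mem_filter, Finset.mem_univ, true_and] using hT
    congr 1
    apply Finset.prod_congr rfl
    intro j _
    rw [h3 j]

end Vale.Agent.P181.H411.UB
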