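import Vale.Agent.P181.Z.H582.NT
import Vale.Agent.P181.H921.ZNp
import Vale.Agent.P181.H699.Reg

/-!
# P181, Z: the light rows in the count of multisets
-/

set_option autoImplicit false

namespace Vale.Agent.P181.Z.H188

open Finset Vale.Agent.P181.Z.H582
open Vale.Agent.P181.H921.Z (Lt mem_Lt)
open Vale.Agent.P181.H699.Rg (NN sum_exp_le)

section light

variable {h l a : ℕ}

/-- The heavy part of a vector. -/
def hv (v : Fin (h + l) → ℕ) : Fin h → ℕ := fun i => v (Fin.castAdd l i)

/-- The light part of a vector. -/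
def lt (v : Fin (h + l) → ℕ) : Fin l → ℕ := fun j => v (Fin.natAdd h j)

lemma hv_append (w : Fin h → ℕ) (u : Fin l → ℕ) : hv (Fin.append w u) = w := by
  funext i
  simp [hv]

lemma lt_append (w : Fin h → ℕ) (u : Fin l → ℕ) : lt (Fin.append w u) = u := by
  funext i
  simp [lt]

lemma append_hv_lt (v : Fin (h + l) → ℕ) : Fin.append (hv v) (lt v) = v := by
  funext i
  refine Fin.addCases (fun i => ?_) (fun j => ?_) i
  · simp [hv]
  · simp [lt]

lemma sum_append' (w : Fin h → ℕ) (u : Fin l → ℕ) :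
    ∑ i, Fin.append w u i = ∑ i, w i + ∑ j, u j := by
  rw [Fin.sum_univ_add]
  simp

/-- (L2) The pairing. -/
lemma dotp_append (x : Fin h → ℝ) (X : ℝ) (v : Fin (h + l) → ℕ) :
    dotp (Fin.append x (fun _ : Fin l => X)) v =
      dotp x (hv v) + X * ∑ j, (lt v j : ℝ) := by
  unfold dotp hv lt
  rw [Fin.sum_univ_add, Finset.mul_sum]
  simp

lemma append_pos {x : Fin h → ℝ} (hx : ∀ i, 0 < x i) {X : ℝ} (hX : 0 < X) (i : Fin (h + l)) :
    0 < Fin.append x (fun _ : Fin l => X) i := by
  refine Fin.addCases (fun i => ?_) (fun j => ?_) i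
  · simpa using hx i
  · simpa using hX

lemma NN_append (x : Fin h → ℝ) (X : ℝ) :
    NN (Fin.append x (fun _ : Fin l => X)) = NN x * ((1 - Real.exp (-X))⁻¹) ^ l := by
  unfold NN
  rw [Fin.prod_univ_add]
  simp

lemma bern {s : ℝ} (hs1 : s < 1) (l : ℕ) (hl : 2 * l * s ≤ 1) :
    ((1 - s)⁻¹) ^ l ≤ 2 := by
  have h1 := one_add_mul_le_pow (show (-2 : ℝ) ≤ -s by linarith) l
  have h2 : (1 : ℝ) / 2 ≤ (1 - s) ^ l := by
    have : (1 + -s) ^ l = (1 - s) ^ l := by ring_nf
    rw [this] at h1
    linarith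
  rw [inv_pow]
  calc ((1 - s) ^ l)⁻¹ ≤ ((1 : ℝ) / 2)⁻¹ := inv_anti₀ (by norm_num) h2
    _ = 2 := by norm_num

lemma NN_nonneg {x : Fin h → ℝ} (hx : ∀ i, 0 < x i) : 0 ≤ NN x := by
  unfold NN
  refine Finset.prod_nonneg fun i _ => inv_nonneg.2 ?_
  have : Real.exp (-x i) < 1 := by
    rw [Real.exp_lt_one_iff]
    linarith [hx i]
  linarith

lemma NN_append_le {x : Fin h → ℝ} (hx : ∀ i, 0 < x i) {X : ℝ} (hX : 0 < X)
    (hl : 2 * l * Real.exp (-X) ≤ 1) :
    NN (Fin.append x (fun _ : Fin l => X)) ≤ 2 * NN x := by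
  rw [NN_append, mul_comm]
  exact mul_le_mul_of_nonneg_right (bern (by rw [Real.exp_lt_one_iff]; linarith) l hl)
    (NN_nonneg hx)

/-- The letters with a cell in row `j`. -/
lemma sum_row {r : ℕ} (y : Fin r → ℝ) (hy : ∀ i, 0 < y i) (L : Finset (Fin r → ℕ)) (j : Fin r) :
    ∑ v ∈ L.filter (fun v => 1 ≤ v j), Real.exp (-dotp y v) ≤ Real.exp (-y j) * NN y := by
  classical
  have h1 : ∀ v ∈ L.filter (fun v => 1 ≤ v j), Real.exp (-dotp y v) =
      Real.exp (-y j) * Real.exp (-dotp y (v - Pi.single j 1)) := by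
    intro v hv
    have hvj := (Finset.mem_filter.1 hv).2
    have h2 : v = (v - Pi.single j 1) + Pi.single j 1 := by
      funext i
      by_cases hij : i = j
      · subst hij
        simp only [Pi.add_apply, Pi.sub_apply, Pi.single_eq_same]
        omega
      · simp [Pi.single_eq_of_ne hij]
    have h3 : dotp y (Pi.single j 1) = y j := by
      unfold dotp
      rw [Finset.sum_eq_single j]
      · simp
      · intro i _ hij
        simp [Pi.single_eq_of_ne hij]
      · simp
    conv_lhs => rw [h2, dotp_add, h3]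
    rw [← Real.exp_add]
    congr 1
    ring
  rw [Finset.sum_congr rfl h1, ← Finset.mul_sum]
  apply mul_le_mul_of_nonneg_left _ (Real.exp_pos _).le
  have hinj : Set.InjOn (fun v : Fin r → ℕ => v - Pi.single j 1)
      (L.filter (fun v => 1 ≤ v j) : Set (Fin r → ℕ)) := by
    intro u hu v hv huv
    have hu1 : 1 ≤ u j := (Finset.mem_filter.1 (Finset.mem_coe.1 hu)).2
    have hv1 : 1 ≤ v j := (Finset.mem_filter.1 (Finset.mem_coe.1 hv)).2
    funext i
    have h4 := congrFun huv i
    simp only [Pi.sub_apply] at h4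
    by_cases hij : i = j
    · subst hij
      simp only [Pi.single_eq_same] at h4
      omega
    · simpa [Pi.single_eq_of_ne hij] using h4
  rw [← Finset.sum_image (f := fun u => Real.exp (-dotp y u)) hinj]
  exact sum_exp_le y hy _

/-- The letters with a light cell. -/
lemma sum_light {x : Fin h → ℝ} (hx : ∀ i, 0 < x i) {X : ℝ} (hX : 0 < X)
    (hl : 2 * l * Real.exp (-X) ≤ 1) (L : Finset (Fin (h + l) → ℕ)) :
    ∑ v ∈ L.filter (fun v => lt v ≠ 0),
      Real.exp (-dotp (Fin.append x (fun _ : Fin l => X)) v) ≤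
      2 * l * Real.exp (-X) * NN x := by
  classical
  set y : Fin (h + l) → ℝ := Fin.append x (fun _ : Fin l => X) with hy
  have hy0 : ∀ i, 0 < y i := append_pos hx hX
  have h1 : ∑ v ∈ L.filter (fun v => lt v ≠ 0), Real.exp (-dotp y v) ≤
      ∑ j : Fin l, ∑ v ∈ L.filter (fun v => 1 ≤ v (Fin.natAdd h j)), Real.exp (-dotp y v) := by
    rw [Finset.sum_filter]
    simp only [Finset.sum_filter (s := L) (p := fun v => 1 ≤ v (Fin.natAdd h _))]
    rw [Finset.sum_comm]
    apply Finset.sum_le_sum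
    intro v _
    by_cases hv0 : lt v ≠ 0
    · rw [if_pos hv0]
      obtain ⟨j, hj⟩ := Function.ne_iff.1 hv0
      have hj1 : 1 ≤ v (Fin.natAdd h j) := Nat.one_le_iff_ne_zero.2 hj
      calc Real.exp (-dotp y v) = if 1 ≤ v (Fin.natAdd h j) then Real.exp (-dotp y v) else 0 := by
            rw [if_pos hj1]
        _ ≤ _ := Finset.single_le_sum (f := fun j : Fin l =>
            if 1 ≤ v (Fin.natAdd h j) then Real.exp (-dotp y v) else 0) (fun i _ => by
              split_ifs
              · exact (Real.exp_pos _).le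
              · exact le_refl _) (Finset.mem_univ j)
    · rw [if_neg hv0]
      exact Finset.sum_nonneg fun i _ => by
        split_ifs
        · exact (Real.exp_pos _).le
        · exact le_refl _
  refine h1.trans ?_
  calc ∑ j : Fin l, ∑ v ∈ L.filter (fun v => 1 ≤ v (Fin.natAdd h j)), Real.exp (-dotp y v)
      ≤ ∑ _j : Fin l, Real.exp (-X) * (2 * NN x) := by
        apply Finset.sum_le_sum
        intro j _
        refine (sum_row y hy0 L _).trans ?_
        have h2 : y (Fin.natAdd h j) = X := by rw [hy]; simp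
        rw [h2]
        exact mul_le_mul_of_nonneg_left (NN_append_le hx hX hl) (Real.exp_pos _).le
    _ = _ := by
        rw [Finset.sum_const, Finset.card_univ, Fintype.card_fin, nsmul_eq_mul]
        ring

lemma inv_le_exp {q : ℝ} (h0 : 0 ≤ q) (h1 : 2 * q ≤ 1) : (1 - q)⁻¹ ≤ Real.exp (2 * q) := by
  have h2 : (1 - q)⁻¹ ≤ 1 + 2 * q := by
    rw [inv_le_iff_one_le_mul₀ (by linarith)]
    nlinarith
  exact h2.trans (by linarith [Real.add_one_le_exp (2 * q)])

lemma le_dotp_of_light {x : Fin h → ℝ} (hx : ∀ i, 0 < x i) {X : ℝ} (hX : 0 < X)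
    {v : Fin (h + l) → ℕ} (hv0 : lt v ≠ 0) :
    X ≤ dotp (Fin.append x (fun _ : Fin l => X)) v := by
  rw [dotp_append]
  obtain ⟨j, hj⟩ := Function.ne_iff.1 hv0
  have h1 : 0 ≤ dotp x (hv v) :=
    Finset.sum_nonneg fun i _ => mul_nonneg (hx i).le (Nat.cast_nonneg _)
  have h2 : (1 : ℝ) ≤ ∑ j, (lt v j : ℝ) := by
    have h3 : (1 : ℝ) ≤ (lt v j : ℝ) := by exact_mod_cast Nat.one_le_iff_ne_zero.2 hj
    exact h3.trans (Finset.single_le_sum (f := fun j => (lt v j : ℝ))
      (fun _ _ => Nat.cast_nonneg _) (Finset.mem_univ j))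
  nlinarith

lemma half_of_light {X : ℝ} (hl : 2 * l * Real.exp (-X) ≤ 1) {v : Fin (h + l) → ℕ}
    (hv0 : lt v ≠ 0) : 2 * Real.exp (-X) ≤ 1 := by
  obtain ⟨j, _⟩ := Function.ne_iff.1 hv0
  have h1 : (1 : ℝ) ≤ l := by
    exact_mod_cast (show 1 ≤ l by have := j.2; omega)
  have h2 := Real.exp_pos (-X)
  nlinarith

/-- The heavy letters inside all letters. -/
lemma prod_heavy (a : ℕ) (F : (Fin h → ℕ) → ℝ) :
    ∏ v ∈ (Lt a (h + l)).filter (fun v => lt v = 0), F (hv v) = ∏ w ∈ Lt a h, F w := by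
  apply Finset.prod_nbij' (i := hv) (j := fun w => Fin.append w 0)
  · intro v hv1
    obtain ⟨h1, h2⟩ := Finset.mem_filter.1 hv1
    rw [mem_Lt] at h1 ⊢
    have h3 := sum_append' (hv v) (lt v)
    rw [append_hv_lt, h2] at h3
    simp only [Pi.zero_apply, Finset.sum_const_zero, add_zero] at h3
    rw [← h3]
    exact h1
  · intro w hw
    rw [Finset.mem_filter, mem_Lt, sum_append']
    rw [mem_Lt] at hw
    simp only [Pi.zero_apply, Finset.sum_const_zero, add_zero]
    exact ⟨hw, lt_append w 0⟩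
  · intro v hv1
    have h2 := (Finset.mem_filter.1 hv1).2
    conv_rhs => rw [← append_hv_lt v, h2]
  · intro w _
    exact hv_append w 0
  · intro v _
    rfl

lemma sum_heavy (a : ℕ) (J : (Fin h → ℕ) → Prop) [DecidablePred J] (F : (Fin h → ℕ) → ℝ) :
    ∑ v ∈ ((Lt a (h + l)).filter (fun v => lt v = 0)).filter (fun v => J (hv v)), F (hv v) =
      ∑ w ∈ (Lt a h).filter J, F w := by
  apply Finset.sum_nbij' (i := hv) (j := fun w => Fin.append w 0)
  · intro v hv1
    obtain ⟨h0, hJ⟩ := Finset.mem_filter.1 hv1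
    obtain ⟨h1, h2⟩ := Finset.mem_filter.1 h0
    rw [Finset.mem_filter]
    refine ⟨?_, hJ⟩
    rw [mem_Lt] at h1 ⊢
    have h3 := sum_append' (hv v) (lt v)
    rw [append_hv_lt, h2] at h3
    simp only [Pi.zero_apply, Finset.sum_const_zero, add_zero] at h3
    rw [← h3]
    exact h1
  · intro w hw
    rw [Finset.mem_filter] at hw
    rw [Finset.mem_filter, Finset.mem_filter, mem_Lt, sum_append', hv_append]
    obtain ⟨hw, hJ⟩ := hw
    rw [mem_Lt] at hw
    simp only [Pi.zero_apply, Finset.sum_const_zero, add_zero]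
    exact ⟨⟨hw, lt_append w 0⟩, hJ⟩
  · intro v hv1
    have h2 := (Finset.mem_filter.1 (Finset.mem_filter.1 hv1).1).2
    conv_rhs => rw [← append_hv_lt v, h2]
  · intro w _
    exact hv_append w 0
  · intro v _
    rfl

/-- (L1) The partition function. -/
theorem ZL_append_le (a : ℕ) {x : Fin h → ℝ} (hx : ∀ i, 0 < x i) {X : ℝ} (hX : 0 < X)
    (hl : 2 * l * Real.exp (-X) ≤ 1) :
    ZL (Lt a (h + l)) (Fin.append x (fun _ : Fin l => X)) ≤
      Real.exp (4 * l * Real.exp (-X) * NN x) * ZL (Lt a h) x := by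
  classical
  set y : Fin (h + l) → ℝ := Fin.append x (fun _ : Fin l => X) with hy
  unfold ZL
  rw [← Finset.prod_filter_mul_prod_filter_not (Lt a (h + l)) (fun v => lt v = 0)]
  have h1 : ∏ v ∈ (Lt a (h + l)).filter (fun v => lt v = 0), (1 - Real.exp (-dotp y v))⁻¹ =
      ∏ w ∈ Lt a h, (1 - Real.exp (-dotp x w))⁻¹ := by
    rw [← prod_heavy (l := l) a (fun w => (1 - Real.exp (-dotp x w))⁻¹)]
    apply Finset.prod_congr rfl
    intro v hv1
    have h2 := (Finset.mem_filter.1 hv1).2
    rw [hy, dotp_append, h2]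
    simp
  rw [h1, mul_comm]
  have hpos : 0 ≤ ∏ w ∈ Lt a h, (1 - Real.exp (-dotp x w))⁻¹ := by
    refine Finset.prod_nonneg fun w hw => inv_nonneg.2 ?_
    have h3 : 0 ≤ dotp x w :=
      Finset.sum_nonneg fun i _ => mul_nonneg (hx i).le (Nat.cast_nonneg _)
    have h4 : Real.exp (-dotp x w) ≤ 1 := by
      rw [Real.exp_le_one_iff]
      linarith
    linarith
  apply mul_le_mul_of_nonneg_right _ hpos
  calc ∏ v ∈ (Lt a (h + l)).filter (fun v => ¬ lt v = 0), (1 - Real.exp (-dotp y v))⁻¹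
      ≤ ∏ v ∈ (Lt a (h + l)).filter (fun v => ¬ lt v = 0),
          Real.exp (2 * Real.exp (-dotp y v)) := by
        apply Finset.prod_le_prod
        · intro v hv1
          have h2 := (Finset.mem_filter.1 hv1).2
          have h3 := le_dotp_of_light hx hX h2
          have h4 : Real.exp (-dotp y v) ≤ 1 := by
            rw [Real.exp_le_one_iff]
            linarith
          exact inv_nonneg.2 (by linarith)
        · intro v hv1
          have h2 := (Finset.mem_filter.1 hv1).2
          have h3 := le_dotp_of_light hx hX h2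
          have h4 : Real.exp (-dotp y v) ≤ Real.exp (-X) := Real.exp_le_exp.2 (by linarith)
          exact inv_le_exp (Real.exp_pos _).le (by linarith [half_of_light hl h2])
    _ = Real.exp (2 * ∑ v ∈ (Lt a (h + l)).filter (fun v => lt v ≠ 0),
          Real.exp (-dotp y v)) := by
        rw [← Real.exp_sum, Finset.mul_sum]
    _ ≤ _ := by
        apply Real.exp_le_exp.2
        have := sum_light hx hX hl (Lt a (h + l))
        linarith

/-- (L3) The sum over the letters of `J`. -/
theorem Jsum_append_le (a : ℕ) {x : Fin h → ℝ} (hx : ∀ i, 0 < x i) {X : ℝ} (hX : 0 < X)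
    (hl : 2 * l * Real.exp (-X) ≤ 1) {σ : ℝ} (hσX : 2 * Real.exp (σ - X) ≤ 1)
    (J : (Fin (h + l) → ℕ) → Prop) [DecidablePred J] (J' : (Fin h → ℕ) → Prop) [DecidablePred J']
    (hJJ : ∀ v, lt v = 0 → J v → J' (hv v)) (hJ' : ∀ w ∈ Lt a h, J' w → σ < dotp x w) :
    ∑ v ∈ (Lt a (h + l)).filter J,
      Real.exp (-dotp (Fin.append x (fun _ : Fin l => X)) v) /
        (1 - Real.exp σ * Real.exp (-dotp (Fin.append x (fun _ : Fin l => X)) v)) ≤
      ∑ w ∈ (Lt a h).filter J', Real.exp (-dotp x w) / (1 - Real.exp σ * Real.exp (-dotp x w)) +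
        4 * l * Real.exp (-X) * NN x := by
  classical
  set y : Fin (h + l) → ℝ := Fin.append x (fun _ : Fin l => X) with hy
  rw [← Finset.sum_filter_add_sum_filter_not ((Lt a (h + l)).filter J) (fun v => lt v = 0)]
  have hterm : ∀ w ∈ Lt a h, J' w →
      0 ≤ Real.exp (-dotp x w) / (1 - Real.exp σ * Real.exp (-dotp x w)) := by
    intro w hw hj
    apply div_nonneg (Real.exp_pos _).le
    have h1 := hJ' w hw hj
    have h2 : Real.exp σ * Real.exp (-dotp x w) ≤ 1 := by
      rw [← Real.exp_add, Real.exp_le_one_iff]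
      linarith
    linarith
  apply add_le_add
  · rw [← sum_heavy (l := l) a J'
      (fun w => Real.exp (-dotp x w) / (1 - Real.exp σ * Real.exp (-dotp x w)))]
    have hsub : ((Lt a (h + l)).filter J).filter (fun v => lt v = 0) ⊆
        ((Lt a (h + l)).filter (fun v => lt v = 0)).filter (fun v => J' (hv v)) := by
      intro v hv1
      rw [Finset.mem_filter, Finset.mem_filter] at hv1 ⊢
      exact ⟨⟨hv1.1.1, hv1.2⟩, hJJ v hv1.2 hv1.1.2⟩
    have hcongr : ∑ v ∈ ((Lt a (h + l)).filter J).filter (fun v => lt v = 0),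
        Real.exp (-dotp y v) / (1 - Real.exp σ * Real.exp (-dotp y v)) =
        ∑ v ∈ ((Lt a (h + l)).filter J).filter (fun v => lt v = 0),
          Real.exp (-dotp x (hv v)) / (1 - Real.exp σ * Real.exp (-dotp x (hv v))) := by
      apply Finset.sum_congr rfl
      intro v hv1
      have h2 := (Finset.mem_filter.1 hv1).2
      have h3 : dotp y v = dotp x (hv v) := by
        rw [hy, dotp_append, h2]
        simp
      rw [h3]
    rw [hcongr]
    apply Finset.sum_le_sum_of_subset_of_nonneg hsub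
    intro v hv1 _
    rw [Finset.mem_filter, Finset.mem_filter] at hv1
    apply hterm (hv v) _ hv1.2
    have h1 := hv1.1.1
    rw [mem_Lt] at h1 ⊢
    have h3 := sum_append' (hv v) (lt v)
    rw [append_hv_lt, hv1.1.2] at h3
    simp only [Pi.zero_apply, Finset.sum_const_zero, add_zero] at h3
    rw [← h3]
    exact h1
  · have h1 : ∑ v ∈ ((Lt a (h + l)).filter J).filter (fun v => ¬ lt v = 0),
        Real.exp (-dotp y v) / (1 - Real.exp σ * Real.exp (-dotp y v)) ≤
        ∑ v ∈ ((Lt a (h + l)).filter J).filter (fun v => lt v ≠ 0),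
          2 * Real.exp (-dotp y v) := by
      apply Finset.sum_le_sum
      intro v hv1
      have h2 := (Finset.mem_filter.1 hv1).2
      have h3 := le_dotp_of_light hx hX h2
      have h4 : Real.exp σ * Real.exp (-dotp y v) ≤ Real.exp (σ - X) := by
        rw [← Real.exp_add]
        exact Real.exp_le_exp.2 (by linarith)
      rw [div_le_iff₀ (by linarith)]
      have h5 := Real.exp_pos (-dotp y v)
      nlinarith
    refine h1.trans ?_
    rw [← Finset.mul_sum]
    have h2 := sum_light hx hX hl ((Lt a (h + l)).filter J)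
    linarith

/-- (L4) The Chernoff bound over all rows, in terms of the heavy rows. -/
theorem nt_light_le (a : ℕ) {x : Fin h → ℝ} (hx : ∀ i, 0 < x i) {X : ℝ} (hX : 0 < X)
    (hl : 2 * l * Real.exp (-X) ≤ 1) {σ : ℝ} (hσ : 0 ≤ σ) (hσX : 2 * Real.exp (σ - X) ≤ 1)
    (J : (Fin (h + l) → ℕ) → Prop) [DecidablePred J] (J' : (Fin h → ℕ) → Prop) [DecidablePred J']
    (hJJ : ∀ v, lt v = 0 → J v → J' (hv v)) (hJ' : ∀ w ∈ Lt a h, J' w → σ < dotp x w)
    (w : Fin (h + l) → ℕ) (t : ℕ) :
    ((NTs (Lt a (h + l)) J w t).ncard : ℝ) ≤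
      Real.exp (dotp x (hv w) + X * ∑ j, (lt w j : ℝ) - σ * t + (Real.exp σ - 1) *
        (∑ v ∈ (Lt a h).filter J', Real.exp (-dotp x v) / (1 - Real.exp σ * Real.exp (-dotp x v)) +
          4 * l * Real.exp (-X) * NN x) + 4 * l * Real.exp (-X) * NN x) * ZL (Lt a h) x := by
  classical
  have hσ1 : 0 ≤ Real.exp σ - 1 := by linarith [Real.add_one_le_exp σ]
  have hXσ : σ < X := by
    by_contra hcon
    push Not at hcon
    have : (1 : ℝ) ≤ Real.exp (σ - X) := Real.one_le_exp (by linarith)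
    linarith
  have hpos : ∀ v ∈ Lt a (h + l), 0 < dotp (Fin.append x (fun _ : Fin l => X)) v := by
    intro v hv1
    rw [mem_Lt] at hv1
    have hne : ∃ i, v i ≠ 0 := by
      by_contra hcon
      push Not at hcon
      have : ∑ i, v i = 0 := Finset.sum_eq_zero fun i _ => hcon i
      omega
    obtain ⟨i, hi⟩ := hne
    unfold dotp
    refine lt_of_lt_of_le ?_ (Finset.single_le_sum
      (f := fun i => Fin.append x (fun _ : Fin l => X) i * (v i : ℝ))
      (fun i _ => mul_nonneg (append_pos hx hX i).le (Nat.cast_nonneg _)) (Finset.mem_univ i))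
    exact mul_pos (append_pos hx hX i) (by exact_mod_cast Nat.pos_of_ne_zero hi)
  have hJ : ∀ v ∈ Lt a (h + l), J v → σ < dotp (Fin.append x (fun _ : Fin l => X)) v := by
    intro v hv1 hj
    by_cases h2 : lt v = 0
    · have h3 : dotp (Fin.append x (fun _ : Fin l => X)) v = dotp x (hv v) := by
        rw [dotp_append, h2]
        simp
      rw [h3]
      apply hJ' _ _ (hJJ v h2 hj)
      rw [mem_Lt] at hv1 ⊢
      have h4 := sum_append' (hv v) (lt v)
      rw [append_hv_lt, h2] at h4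
      simp only [Pi.zero_apply, Finset.sum_const_zero, add_zero] at h4
      rw [← h4]
      exact hv1
    · exact lt_of_lt_of_le hXσ (le_dotp_of_light hx hX h2)
  refine (nt_le (Lt a (h + l)) J _ σ hσ hpos hJ w t).trans ?_
  have h1 := ZL_append_le (l := l) a hx hX hl
  have h2 := Jsum_append_le (l := l) a hx hX hl hσX J J' hJJ hJ'
  have hZ0 : 0 ≤ ZL (Lt a (h + l)) (Fin.append x (fun _ : Fin l => X)) :=
    (ZL_pos _ _ hpos).le
  refine (mul_le_mul_of_nonneg_left h1 (Real.exp_pos _).le).trans ?_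
  rw [← mul_assoc, ← Real.exp_add]
  apply mul_le_mul_of_nonneg_right
  · apply Real.exp_le_exp.2
    rw [dotp_append]
    have h3 := mul_le_mul_of_nonneg_left h2 hσ1
    linarith
  · unfold ZL
    refine Finset.prod_nonneg fun w hw => inv_nonneg.2 ?_
    have h3 : 0 ≤ dotp x w :=
      Finset.sum_nonneg fun i _ => mul_nonneg (hx i).le (Nat.cast_nonneg _)
    have h4 : Real.exp (-dotp x w) ≤ 1 := by
      rw [Real.exp_le_one_iff]
      linarith
    linarith

end light

end Vale.Agent.P181.Z.H188
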