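import Vale.Agent.P181.Z.H188.Light
import Vale.Agent.P181.Z.H483.Core

/-!
# P181, Z: the heavy rows inside all rows (counting side), and the core with light rows
-/

set_option autoImplicit false

namespace Vale.Agent.P181.Z.H188

open Finset Vale.Agent.P181.Z.H582
open Vale.Agent.P181.H921.Z (Lt mem_Lt)
open Vale.Agent.P181.H699.Rg (NN)
open Vale.Agent.P181.Z.H483 (MF mem_MF cnt mean nn)

variable {h l : ℕ}

lemma lt_of_mem (s : Multiset (Fin (h + l) → ℕ)) (hs : lt s.sum = 0) : ∀ v ∈ s, lt v = 0 := by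
  induction s using Multiset.induction_on with
  | empty => intro v hv1; simp at hv1
  | cons u s ih =>
    rw [Multiset.sum_cons] at hs
    have h1 : ∀ j, lt u j = 0 ∧ lt s.sum j = 0 := by
      intro j
      have h2 := congrFun hs j
      have h3 : lt (u + s.sum) j = lt u j + lt s.sum j := rfl
      rw [h3, Pi.zero_apply] at h2
      omega
    intro v hv1
    rcases Multiset.mem_cons.1 hv1 with rfl | hv2
    · funext j
      exact (h1 j).1
    · exact ih (funext fun j => (h1 j).2) v hv2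

lemma hv_sum (s : Multiset (Fin (h + l) → ℕ)) : (s.map hv).sum = hv s.sum := by
  induction s using Multiset.induction_on with
  | empty => rfl
  | cons u s ih =>
    rw [Multiset.map_cons, Multiset.sum_cons, Multiset.sum_cons, ih]
    rfl

lemma append_sum (s : Multiset (Fin h → ℕ)) :
    (s.map fun w => Fin.append w (0 : Fin l → ℕ)).sum = Fin.append s.sum (0 : Fin l → ℕ) := by
  induction s using Multiset.induction_on with
  | empty =>
    funext i
    refine Fin.addCases (fun i => ?_) (fun j => ?_) i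
    · simp
    · simp
  | cons u s ih =>
    rw [Multiset.map_cons, Multiset.sum_cons, Multiset.sum_cons, ih]
    funext i
    refine Fin.addCases (fun i => ?_) (fun j => ?_) i
    · simp
    · simp

lemma append_mem_Lt {a : ℕ} {w : Fin h → ℕ} :
    Fin.append w (0 : Fin l → ℕ) ∈ Lt a (h + l) ↔ w ∈ Lt a h := by
  rw [mem_Lt, mem_Lt, sum_append']
  simp

/-- (L5a) -/
theorem cnt_append (a N : ℕ) (w : Fin h → ℕ) :
    cnt (Lt a (h + l)) N (Fin.append w (0 : Fin l → ℕ)) = cnt (Lt a h) N w := by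
  unfold cnt
  have happ : ∀ v : Fin (h + l) → ℕ, lt v = 0 → Fin.append (hv v) (0 : Fin l → ℕ) = v := by
    intro v h0
    conv_rhs => rw [← append_hv_lt v, h0]
  apply Finset.card_nbij' (i := Multiset.map hv)
    (j := Multiset.map fun w => Fin.append w (0 : Fin l → ℕ))
  · intro s hs
    obtain ⟨h1, h2⟩ := Finset.mem_filter.1 hs
    obtain ⟨hc, hL⟩ := (mem_MF _ _ _).1 h1
    have h0 := lt_of_mem s (by rw [h2, lt_append])
    refine Finset.mem_coe.2 (Finset.mem_filter.2 ⟨(mem_MF _ _ _).2 ⟨?_, ?_⟩, ?_⟩)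
    · rw [Multiset.card_map]
      exact hc
    · intro v hv1
      obtain ⟨u, hu, rfl⟩ := Multiset.mem_map.1 hv1
      rw [← append_mem_Lt (l := l), happ u (h0 u hu)]
      exact hL u hu
    · rw [hv_sum, h2, hv_append]
  · intro s hs
    obtain ⟨h1, h2⟩ := Finset.mem_filter.1 hs
    obtain ⟨hc, hL⟩ := (mem_MF _ _ _).1 h1
    refine Finset.mem_coe.2 (Finset.mem_filter.2 ⟨(mem_MF _ _ _).2 ⟨?_, ?_⟩, ?_⟩)
    · rw [Multiset.card_map]
      exact hc
    · intro v hv1
      obtain ⟨u, hu, rfl⟩ := Multiset.mem_map.1 hv1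
      exact append_mem_Lt.2 (hL u hu)
    · rw [append_sum, h2]
  · intro s hs
    obtain ⟨h1, h2⟩ := Finset.mem_filter.1 hs
    have h0 := lt_of_mem s (by rw [h2, lt_append])
    rw [Multiset.map_map]
    conv_rhs => rw [← Multiset.map_id s]
    apply Multiset.map_congr rfl
    intro v hv1
    exact happ v (h0 v hv1)
  · intro s _
    rw [Multiset.map_map]
    conv_rhs => rw [← Multiset.map_id s]
    apply Multiset.map_congr rfl
    intro v _
    exact hv_append v 0

lemma tail_append (r : ℕ) (w : Fin h → ℕ) (u : Fin l → ℕ) :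
    ∑ i : Fin (h + l), (if r ≤ (i : ℕ) then Fin.append w u i else 0) =
      ∑ i : Fin h, (if r ≤ (i : ℕ) then w i else 0) +
        ∑ j : Fin l, (if r ≤ h + (j : ℕ) then u j else 0) := by
  rw [Fin.sum_univ_add]
  simp

/-- (L5b) -/
theorem h1_append {a N : ℕ} {f : (Fin (h + l) → ℕ) → ℝ}
    (h1 : ∀ θ, f θ ≤ cnt (Lt a (h + l)) N θ) (θ : Fin h → ℕ) :
    f (Fin.append θ 0) ≤ cnt (Lt a h) N θ := by
  rw [← cnt_append (l := l)]
  exact h1 _

/-- (L5c) -/
theorem h2_append {a N : ℕ} {f : (Fin (h + l) → ℕ) → ℝ} {P : ℝ}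
    (h2 : ∀ w, 0 < cnt (Lt a (h + l)) N w → ∃ θ : Fin (h + l) → ℕ,
      (∀ r : ℕ, ∑ i : Fin (h + l), (if r ≤ (i : ℕ) then θ i else 0) ≤
        ∑ i : Fin (h + l), (if r ≤ (i : ℕ) then w i else 0)) ∧
      (cnt (Lt a (h + l)) N w : ℝ) ≤ P * f θ)
    (w : Fin h → ℕ) (hw : 0 < cnt (Lt a h) N w) :
    ∃ θ : Fin h → ℕ, (∀ r : ℕ, ∑ i : Fin h, (if r ≤ (i : ℕ) then θ i else 0) ≤
      ∑ i : Fin h, (if r ≤ (i : ℕ) then w i else 0)) ∧
      (cnt (Lt a h) N w : ℝ) ≤ P * f (Fin.append θ 0) := by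
  obtain ⟨Θ, hΘ, hc⟩ := h2 (Fin.append w 0) (by rw [cnt_append]; exact hw)
  have hΘ' : ∀ r : ℕ, ∑ i : Fin h, (if r ≤ (i : ℕ) then hv Θ i else 0) +
      ∑ j : Fin l, (if r ≤ h + (j : ℕ) then lt Θ j else 0) ≤
      ∑ i : Fin h, (if r ≤ (i : ℕ) then w i else 0) := by
    intro r
    have h3 := hΘ r
    rw [← append_hv_lt Θ, tail_append, tail_append] at h3
    simpa using h3
  have hz : lt Θ = 0 := by
    have h3 := hΘ' h
    have h4 : ∑ i : Fin h, (if h ≤ (i : ℕ) then w i else 0) = 0 := by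
      apply Finset.sum_eq_zero
      intro i _
      rw [if_neg (by have := i.2; omega)]
    have h5 : ∑ j : Fin l, (if h ≤ h + (j : ℕ) then lt Θ j else 0) = ∑ j : Fin l, lt Θ j := by
      apply Finset.sum_congr rfl
      intro j _
      rw [if_pos (by omega)]
    rw [h4, h5] at h3
    have h6 : ∑ j : Fin l, lt Θ j = 0 := by omega
    funext j
    have := Finset.sum_eq_zero_iff.1 h6 j (Finset.mem_univ j)
    exact this
  refine ⟨hv Θ, fun r => ?_, ?_⟩
  · have h3 := hΘ' r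
    omega
  · rw [cnt_append] at hc
    have h3 : Fin.append (hv Θ) (0 : Fin l → ℕ) = Θ := by
      conv_rhs => rw [← append_hv_lt Θ, hz]
    rw [h3]
    exact hc

lemma ne_zero_of_mem_Lt {a r : ℕ} {v : Fin r → ℕ} (hv1 : v ∈ Lt a r) : v ≠ 0 := by
  rintro rfl
  rw [mem_Lt] at hv1
  simp at hv1

/-- (L5d) **The core with light rows.** -/
theorem core_light (a : ℕ) (x : Fin h → ℝ) (hx : ∀ i, 0 < x i) (hmono : Monotone x)
    (X : ℝ) (hX : 0 < X) (hl : 2 * l * Real.exp (-X) ≤ 1) (m c : Fin h → ℝ)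
    (hmean : ∀ i, mean (Lt a h) x i = m i - c i / x i)
    (N : ℕ) (f : (Fin (h + l) → ℕ) → ℝ) (P : ℝ) (hP0 : 0 < P)
    (h1 : ∀ θ, f θ ≤ cnt (Lt a (h + l)) N θ)
    (h2 : ∀ w, 0 < cnt (Lt a (h + l)) N w → ∃ θ : Fin (h + l) → ℕ,
      (∀ r : ℕ, ∑ i : Fin (h + l), (if r ≤ (i : ℕ) then θ i else 0) ≤
        ∑ i : Fin (h + l), (if r ≤ (i : ℕ) then w i else 0)) ∧
      (cnt (Lt a (h + l)) N w : ℝ) ≤ P * f θ)
    (y D : ℝ) (hy0 : 0 ≤ y) (hy : y ≤ 1 / 4)
    (τ : ℝ) (hτ : 0 ≤ τ) (hτL : ∀ v ∈ Lt a h, τ < dotp x v)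
    (hT : Real.exp (-τ * (N + 1 : ℕ) + (Real.exp τ - 1) * ∑ v ∈ Lt a h,
        Real.exp (-dotp x v) / (1 - Real.exp τ * Real.exp (-dotp x v))) ≤ 1 / 4)
    (nW : ℝ) (hnW : 0 < nW) (hW : (((MF (Lt a h) N).image Multiset.sum).card : ℝ) ≤ nW)
    (hsmall : 2 * P * nW * Real.exp (-(y * D) + 38 * y ^ 2 * nn (Lt a h) x) ≤ 1)
    (J : (Fin (h + l) → ℕ) → Prop) [DecidablePred J] (J' : (Fin h → ℕ) → Prop) [DecidablePred J']
    (hJJ : ∀ v, lt v = 0 → J v → J' (hv v)) (σJ : ℝ) (hσ : 0 ≤ σJ)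
    (hσX : 2 * Real.exp (σJ - X) ≤ 1) (hJ' : ∀ w ∈ Lt a h, J' w → σJ < dotp x w)
    (lam : Fin (h + l) → ℕ) (t : ℕ)
    (hc : dotp x (hv lam) + X * ∑ j, (lt lam j : ℝ) - ∑ i, x i * m i + ∑ i, c i + h * D +
      Real.log (2 * P * nW) + (Real.exp σJ - 1) * (∑ v ∈ (Lt a h).filter J',
        Real.exp (-dotp x v) / (1 - Real.exp σJ * Real.exp (-dotp x v)) +
          4 * l * Real.exp (-X) * NN x) + 4 * l * Real.exp (-X) * NN x ≤ σJ * t) :
    ∃ θ : Fin h → ℕ, (∀ i, |x i * (m i - θ i) - c i| < D) ∧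
      ((NTs (Lt a (h + l)) J lam t).ncard : ℝ) ≤ f (Fin.append θ 0) := by
  classical
  have hL : ∀ v ∈ Lt a h, v ≠ 0 := fun v hv1 => ne_zero_of_mem_Lt hv1
  have hZ : 0 < ZL (Lt a h) x :=
    ZL_pos _ x fun v hv1 => Vale.Agent.P181.Z.H483.dotp_pos x hx (hL v hv1)
  have hTT : 3 / 4 * ZL (Lt a h) x ≤ ∑ s ∈ MF (Lt a h) N, Real.exp (-dotp x s.sum) := by
    have := Vale.Agent.P181.Z.H483.total_ge (Lt a h) x τ hτ hτL N
    have h3 := mul_le_mul_of_nonneg_right hT hZ.le
    linarith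
  obtain ⟨θ, hθ, hF⟩ := Vale.Agent.P181.Z.H483.pig (Lt a h) hL x hx hmono N
    (fun θ => f (Fin.append θ 0)) P hP0 (h1_append h1) (h2_append h2) y D hy0 hy hTT nW hnW hW
    hsmall
  have hxm : ∀ i, x i * mean (Lt a h) x i = x i * m i - c i := fun i => by
    have := (hx i).ne'
    rw [hmean i]; field_simp
  refine ⟨θ, fun i => ?_, ?_⟩
  · have := hθ i
    rw [hxm i] at this
    rw [abs_sub_comm] at this
    have e : x i * (m i - θ i) - c i = x i * m i - c i - x i * θ i := by ring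
    rw [e]; exact this
  · have h4 : ∑ i, x i * m i - ∑ i, c i - h * D ≤ dotp x θ := by
      have h5 : ∀ i ∈ (Finset.univ : Finset (Fin h)),
          x i * m i - c i - D ≤ x i * (θ i : ℝ) := fun i _ => by
        have := (abs_lt.1 (hθ i)).1
        rw [hxm i] at this
        linarith
      have h6 := Finset.sum_le_sum h5
      rw [Finset.sum_sub_distrib, Finset.sum_sub_distrib, Finset.sum_const, Finset.card_univ,
        Fintype.card_fin, nsmul_eq_mul] at h6
      exact h6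
    have hF0 : 0 < f (Fin.append θ 0) := by
      by_contra hneg
      rw [not_lt] at hneg
      have : 2 * P * nW * f (Fin.append θ 0) * Real.exp (-dotp x θ) ≤ 0 := by
        have h1 : 0 < 2 * P * nW * Real.exp (-dotp x θ) := by positivity
        nlinarith
      linarith
    have h7 := nt_light_le (l := l) a hx hX hl hσ hσX J J' hJJ hJ' lam t
    refine h7.trans ?_
    set B : ℝ := dotp x (hv lam) + X * ∑ j, (lt lam j : ℝ) - σJ * t + (Real.exp σJ - 1) *
        (∑ v ∈ (Lt a h).filter J',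
          Real.exp (-dotp x v) / (1 - Real.exp σJ * Real.exp (-dotp x v)) +
          4 * l * Real.exp (-X) * NN x) + 4 * l * Real.exp (-X) * NN x with hB
    calc Real.exp B * ZL (Lt a h) x
        ≤ Real.exp B * (2 * P * nW * f (Fin.append θ 0) * Real.exp (-dotp x θ)) :=
          mul_le_mul_of_nonneg_left hF (Real.exp_pos _).le
      _ = f (Fin.append θ 0) * Real.exp (B - dotp x θ + Real.log (2 * P * nW)) := by
          have h2 : 2 * P * nW = Real.exp (Real.log (2 * P * nW)) := by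
            rw [Real.exp_log (by positivity)]
          rw [show (2 * P * nW * f (Fin.append θ 0) * Real.exp (-dotp x θ) : ℝ) =
            f (Fin.append θ 0) * (2 * P * nW) * Real.exp (-dotp x θ) by ring]
          conv_lhs => rw [h2]
          rw [show ∀ a b c d : ℝ, a * (b * c * d) = b * (a * c * d) by intros; ring,
            ← Real.exp_add, ← Real.exp_add]
          congr 2
          ring
      _ ≤ f (Fin.append θ 0) * 1 := by
          apply mul_le_mul_of_nonneg_left _ hF0.le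
          rw [Real.exp_le_one_iff, hB]
          linarith
      _ = f (Fin.append θ 0) := mul_one _

end Vale.Agent.P181.Z.H188
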